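import Vale.Agent.P122.E.Defs

/-!
# P122 / E8 : the line of the piece `sig c d` and the cut boxes, definitions (helper823, with 912, 683)

* `lst F c d` : line of the piece `sig c d` in the coordinates of the ball `c`; precision `F.m (2 c - d)`.
* `cut F W kk c c' d` : the plank `W c'` cut to the ball `c`, of thickness exactly `2^(-(2 c - d) n)`, around `lst`.
-/

set_option autoImplicit false

namespace Vale.Agent.P122.E

open Filter Topology Finset Vale.Agent.P127 Vale.Agent.P127.Stk Vale.Agent.P127.U Vale.Agent.P127.U.Sys Vale.Agent.P122.C2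

namespace Flg

variable {K : ℕ} (F : Flg K)

/-- the line of the piece `sig c d` in the coordinates of the ball `c` -/
noncomputable def lst (c d : ℕ) : F.S.RV Ln := fun i ω =>
  (fun k => Int.fract (((F.sig c d i ω).o k : ℝ) / 2 ^ ((2 * c - d) * F.n i)), F.s i (2 * c - d) (F.sig c d i ω).τ)

/-- the plank `W c'` cut to the ball `c`, around the piece `sig c d` -/
noncomputable def cut (W : ℕ → F.S.BX) (kk : ℕ → ℕ → ℕ) (c c' d : ℕ) : F.S.BX := fun i =>
  ⟨F.lst c d i, (W c' i).θ, fun _ => min (kk c' i - 2 * (c' - c) * F.n i) (F.m (2 * c - d) i),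
    fun _ => F.m (2 * c - d) i⟩

end Flg

end Vale.Agent.P122.E
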