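import Vale.Agent.P122.H823.CutG
import Vale.Agent.P122.H518.E12
import Vale.Agent.P122.H380.Lst
import Vale.Agent.P122.H912.Low
import Vale.Agent.P122.K931.Zero
import Vale.Agent.P127.U.Coarse

/-!
# P122 / E8 : lower bound for the value of the cut planks (helper823)

* `hc_cut` : entropy of the label of the cut plank given the plank `W c'` and the balls.
* `val_cut`, `stCut` : lower bound for the value of the cut planks.
-/

set_option autoImplicit false

namespace Vale.Agent.P122.H823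

open Filter Topology Finset Vale.Agent.P127 Vale.Agent.P127.Stk Vale.Agent.P127.U Vale.Agent.P127.U.Sys Vale.Agent.P122.C2
  Vale.Agent.P122.E Vale.Agent.P122.H474 Vale.Agent.P122.H265

variable {K : ℕ} {F : Flg K} {J θ H e : ℕ → ℝ} {W : ℕ → F.S.BX} {kk jj : ℕ → ℕ → ℕ}

/-- width and thickness exponents of the optimal planks -/
theorem kj_le (hR : RegA F J θ H e W kk jj) {c : ℕ} (hc : c ≤ K) :
    ∀ᶠ i in (uf : Filter ℕ), kk c i ≤ jj c i ∧ jj c i ≤ c * F.n i := by
  filter_upwards [hR.Wok c hc] with n hn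
  obtain ⟨ω, hω⟩ := H563.exists_supp (F.S.P n)
  exact (hn ω hω).2.2.2.2

theorem bd_kj (hK : 1 ≤ K) {a : ℕ → ℕ} {c : ℕ} (h : ∀ᶠ i in (uf : Filter ℕ), a i ≤ c * F.n i) : F.S.Bd a := by
  obtain ⟨C, hC⟩ := K931.bd_mul F hK c
  refine ⟨C, ?_⟩
  filter_upwards [h, hC] with i h1 h2
  refine le_trans ?_ h2
  exact_mod_cast h1

/-- linear combinations of exponents -/
theorem ulim_lin (hK : 1 ≤ K) {a : ℕ → ℕ} (ha : F.S.Bd a) (f : ℕ → ℝ) (x y : ℝ)
    (h : ∀ᶠ i in (uf : Filter ℕ), f i = x * F.n i + y * a i) :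
    ulim (fun i => f i / F.S.L i) = x / K + y * F.S.nu a := by
  have hKp : (0:ℝ) < K := by exact_mod_cast hK
  have h1 : ulim (fun i => x / K + y * ((a i : ℝ) / F.S.L i)) = x / K + y * F.S.nu a := by
    rw [ulim_add (UB.const _) ((Apx.UB.nu ha).const_mul y), ulim_const, ulim_const_mul y (Apx.UB.nu ha)]
    rfl
  rw [← h1]
  refine ulim_congr ?_
  filter_upwards [h, H563.n_pos F] with i h2 h3
  rw [h2, h3.2]
  have : (F.n i : ℝ) ≠ 0 := h3.1.ne'
  field_simp

/-- entropy of the label of the cut plank -/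
theorem hc_cut (hK : 1 ≤ K) (hR : RegA F J θ H e W kk jj) {c c' d : ℕ} (hc : 1 ≤ c) (hcc : c ≤ c')
    (hcd : c' ≤ d) (hd : d ≤ 2 * c) (hdK : d ≤ K) :
    F.S.hc (BX.lab (F.cut W kk c c' d)) (Sys.pr (F.ball c) (Sys.pr (BX.lab (W c')) (F.ball c'))) ≤
      5 * (nα F jj c' - (c':ℝ) / K) := by
  classical
  have hc'K : c' ≤ K := hcd.trans hdK
  set Z := Sys.pr (F.ball c) (Sys.pr (BX.lab (W c')) (F.ball c')) with hZ
  have hA := (H380.stLst F J θ H e W kk jj hK hR c c' d hc hcc hcd hd hdK).2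
  have tL : Tame (BX.lab (F.cut W kk c c' d)) := hA.ok.tame
  let k' : ℕ → ℕ := fun i => min (kk c' i - 2 * (c' - c) * F.n i) (F.m (2 * c - d) i)
  let A : F.S.RV ℤ := fun i ω => fl1 (F.m (2 * c - d) i - k' i) ((W c' i).θ ω)
  have fA : Sys.Fn A (BX.lab (F.cut W kk c c' d)) := by
    refine Eventually.of_forall fun i ω ω' _ _ e => ?_
    exact congrArg (fun q : Lab => q.2.2.1) e
  have tA : Tame A := tL.mono fA
  let g : ℕ → ℕ := fun i => c' * F.n i - jj c' i
  have hg : ∀ᶠ i in (uf : Filter ℕ), g i ≤ c' * F.n i := Eventually.of_forall fun i => Nat.sub_le _ _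
  obtain ⟨N, hN⟩ := exists_nat_ge (3 * (4 + 4 * cst F))
  have hC := Chn.C_nonneg (F.slp 0)
  have hB : 0 ≤ cst F := by
    unfold cst
    positivity
  -- equality of `Z`
  have key : ∀ᶠ i in (uf : Filter ℕ), ∀ ω ω', 0 < (F.S.P i).w ω → 0 < (F.S.P i).w ω' → Z i ω' = Z i ω →
      lab ((W c' i).θ ω') (kk c' i) (jj c' i) (F.ln c' i ω') = lab ((W c' i).θ ω) (kk c' i) (jj c' i) (F.ln c' i ω) ∧
      F.ball c i ω' = F.ball c i ω ∧ F.ball c' i ω' = F.ball c' i ω := by
    filter_upwards [hR.Wok c' hc'K] with i hi ω ω' hω hω' e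
    obtain ⟨a1, -, a3, a4, -⟩ := hi ω hω
    obtain ⟨b1, -, b3, b4, -⟩ := hi ω' hω'
    have e1 : F.ball c i ω' = F.ball c i ω := congrArg Prod.fst e
    have e2 : (W c' i).lab ω' = (W c' i).lab ω := congrArg (fun q => q.2.1) e
    have e3 : F.ball c' i ω' = F.ball c' i ω := congrArg (fun q => q.2.2) e
    refine ⟨?_, e1, e3⟩
    rw [Bx.lab, Bx.lab, a1, a3, a4, b1, b3, b4] at e2
    exact e2
  have hkj := kj_le hR hc'K
  -- the angle
  have h1 : F.S.hc A Z ≤ F.S.nu g := by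
    refine H912.hc_le_nu (bd_kj hK hg) (Real.log 5) ?_
    filter_upwards [key, hkj] with i hi hj
    have h2 := Stk.hc_le_log (F.S.P i) (A i) (Z i) (2 ^ g i * 5) fun ω hω =>
      ⟨Finset.Icc (A i ω - ((2 ^ g i + 1 : ℕ) : ℤ)) (A i ω + ((2 ^ g i + 1 : ℕ) : ℤ)), ?_, fun ω' hω' e => ?_⟩
    · push_cast at h2
      rw [Real.log_mul (by positivity) (by norm_num), Real.log_pow] at h2
      exact h2
    · rw [Int.card_Icc]
      have : 1 ≤ 2 ^ g i := Nat.one_le_two_pow
      omega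
    · obtain ⟨e1, -, -⟩ := hi ω ω' hω hω' e
      have e2 : fl1 (jj c' i - kk c' i) ((W c' i).θ ω) = fl1 (jj c' i - kk c' i) ((W c' i).θ ω') := by
        have := congrArg (fun q : Lab => q.2.2.1) e1
        exact this.symm
      have h3 : F.m (2 * c - d) i - k' i ≤ (jj c' i - kk c' i) + g i := by
        have m1 : F.m (2 * c - d) i + 2 * (c' - c) * F.n i ≤ c' * F.n i := by
          show (2 * c - d) * F.n i + 2 * (c' - c) * F.n i ≤ _
          rw [← add_mul]
          exact Nat.mul_le_mul_right _ (by omega)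
        show F.m (2 * c - d) i - min (kk c' i - 2 * (c' - c) * F.n i) (F.m (2 * c - d) i) ≤
          (jj c' i - kk c' i) + (c' * F.n i - jj c' i)
        generalize 2 * (c' - c) * F.n i = δ at *
        generalize F.m (2 * c - d) i = m at *
        omega
      have h4 := ang_cut h3 e2
      have h5 := abs_le.1 h4
      rw [Finset.mem_Icc]
      show A i ω - ((2 ^ g i + 1 : ℕ) : ℤ) ≤ fl1 (F.m (2 * c - d) i - k' i) ((W c' i).θ ω') ∧
        fl1 (F.m (2 * c - d) i - k' i) ((W c' i).θ ω') ≤ A i ω + ((2 ^ g i + 1 : ℕ) : ℤ)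
      have e6 : A i ω = fl1 (F.m (2 * c - d) i - k' i) ((W c' i).θ ω) := rfl
      rw [e6]
      constructor <;> linarith [h5.1, h5.2]
  -- the label
  have h2 : F.S.hc (BX.lab (F.cut W kk c c' d)) (Sys.pr A Z) ≤ F.S.nu fun i => 4 * g i := by
    refine H912.hc_le_nu (bd_kj (c := 4 * c') hK ?_) (4 * Real.log (2 * N + 3)) ?_
    · filter_upwards [hg] with i hi
      rw [mul_assoc]
      exact Nat.mul_le_mul_left 4 hi
    filter_upwards [key, hkj] with i hi hj
    have h3 := ExcB.hc_labCl' (F.S.P i) (BX.lab (F.cut W kk c c' d) i) ((Sys.pr A Z) i) (N * 2 ^ g i + 1) (by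
      intro ω ω' hω hω' e
      have eA : A i ω' = A i ω := congrArg Prod.fst e
      obtain ⟨e1, e2, e3⟩ := hi ω ω' hω hω' (congrArg Prod.snd e)
      have m1 : F.m (2 * c - d) i + 2 * (c' - c) * F.n i ≤ c' * F.n i := by
        show (2 * c - d) * F.n i + 2 * (c' - c) * F.n i ≤ _
        rw [← add_mul]
        exact Nat.mul_le_mul_right _ (by omega)
      have hg' : F.m (2 * c - d) i + 2 * (c' - c) * F.n i ≤ jj c' i + g i := by
        show _ ≤ jj c' i + (c' * F.n i - jj c' i)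
        omega
      set ρ : ℝ := (((F.N c i ω).T % 2 ^ (2 * (c' - c) * F.n i) : ℤ) : ℝ) with hρ
      have ρ0 : 0 ≤ ρ := by
        rw [hρ]
        exact_mod_cast Int.emod_nonneg _ (by positivity)
      have ρ1 : ρ ≤ 2 ^ (2 * (c' - c) * F.n i) := by
        have := (Int.emod_lt_of_pos (F.N c i ω).T (by positivity : (0:ℤ) < 2 ^ (2 * (c' - c) * F.n i))).le
        rw [hρ]
        exact_mod_cast this
      have eT : (F.N c i ω').T = (F.N c i ω).T := congrArg Prod.fst e2
      refine lab_cut hB hN hj.1 hg' ρ0 ρ1 (H683.lnOk_lst F (hcc.trans hcd) hd (by omega) i hω')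
        (H683.lnOk_lst F (hcc.trans hcd) hd (by omega) i hω) ?_ ?_ e1 eA
      · intro k
        have q1 := geo1 F hcc hcd hd hdK hω k
        have q2 := geo1 F hcc hcd hd hdK hω' k
        rw [eT, e2, e3] at q2
        show |((F.lst c d i ω').1 k - (F.lst c d i ω).1 k) - (2 ^ (2 * (c' - c) * F.n i) * ((F.ln c' i ω').1 k -
          (F.ln c' i ω).1 k) + ρ * ((F.ln c' i ω').2 k - (F.ln c' i ω).2 k))| ≤ 2 * cst F * (1 / 2) ^ ((2 * c - d) * F.n i)
        rw [abs_le] at q1 q2 ⊢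
        constructor <;> nlinarith [q1.1, q1.2, q2.1, q2.2]
      · intro k
        have q1 := geo2 F hcc hcd hd hdK hω k
        have q2 := geo2 F hcc hcd hd hdK hω' k
        show |((F.lst c d i ω').2 k - (F.lst c d i ω).2 k) - ((F.ln c' i ω').2 k - (F.ln c' i ω).2 k)| ≤
          2 * cst F * (1 / 2) ^ ((2 * c - d) * F.n i)
        rw [abs_le] at q1 q2 ⊢
        constructor <;> linarith [q1.1, q1.2, q2.1, q2.2])
    refine h3.trans ?_
    have h4 : ((((2 * (N * 2 ^ g i + 1) + 1) ^ 4 : ℕ)) : ℝ) ≤ (2 ^ g i * (2 * N + 3)) ^ 4 := by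
      push_cast
      have g1 : (1:ℝ) ≤ 2 ^ g i := one_le_pow₀ (by norm_num)
      refine pow_le_pow_left₀ (by positivity) ?_ 4
      nlinarith
    have h5 := Real.log_le_log (by positivity) h4
    rw [Real.log_pow, Real.log_mul (by positivity) (by positivity), Real.log_pow] at h5
    push_cast at h5 ⊢
    linarith
  -- the sum
  have h3 := hc_le_add tL tA Z
  have n1 : F.S.nu g = (c':ℝ) / K + (-1) * F.S.nu (jj c') := by
    refine ulim_lin hK (bd_kj hK (hkj.mono fun i h => h.2)) (fun i => (g i : ℝ)) c' (-1) ?_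
    filter_upwards [hkj] with i hi
    show ((c' * F.n i - jj c' i : ℕ) : ℝ) = _
    rw [Nat.cast_sub hi.2]
    push_cast
    ring
  have n2 : (F.S.nu fun i => 4 * g i) = (4 * (c':ℝ)) / K + (-4) * F.S.nu (jj c') := by
    refine ulim_lin hK (bd_kj hK (hkj.mono fun i h => h.2)) (fun i => ((4 * g i : ℕ) : ℝ)) (4 * (c':ℝ)) (-4) ?_
    filter_upwards [hkj] with i hi
    have : ((g i : ℕ) : ℝ) = c' * F.n i - jj c' i := by
      show ((c' * F.n i - jj c' i : ℕ) : ℝ) = _
      rw [Nat.cast_sub hi.2]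
      push_cast
      ring
    push_cast
    rw [this]
    ring
  unfold nα
  rw [n1] at h1
  rw [n2] at h2
  have hKp : (0:ℝ) < K := by exact_mod_cast hK
  have e5 : (4 * (c':ℝ)) / K = 4 * ((c':ℝ) / K) := by ring
  have e6 : (2 * (c':ℝ)) / K = 2 * ((c':ℝ) / K) := by ring
  rw [e5] at h2
  rw [e6]
  linarith

/-- **lower bound for the value of the cut planks** -/
theorem val_cut (hK : 1 ≤ K) (hR : RegA F J θ H e W kk jj) {c c' d : ℕ} (hc : 1 ≤ c) (hcc : c ≤ c')
    (hcd : c' ≤ d) (hd : d ≤ 2 * c) (hdK : d ≤ K) :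
    e c' - 1 / K - 8 * (((c':ℝ) - c) / K) - 4 * (((d:ℝ) - c) / K) - 5 * (nα F jj c' - (c':ℝ) / K) ≤
      F.S.val (tubes (F.m (2 * c - d)) (F.lst c d)) (F.cut W kk c c' d) (F.ball c) := by
  have hc'K : c' ≤ K := hcd.trans hdK
  have hKp : (0:ℝ) < K := by exact_mod_cast hK
  obtain ⟨hl, hA⟩ := H380.stLst F J θ H e W kk jj hK hR c c' d hc hcc hcd hd hdK
  set L := BX.lab (F.cut W kk c c' d) with hLdef
  set X := tbs (F.m (2 * c - d)) (F.lst c d) with hX
  set P := Sys.pr (BX.lab (W c')) (F.ball c') with hP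
  have bm : F.S.Bd (F.m (2 * c - d)) := K931.bd_m F hK _
  have tL : Tame L := hA.ok.tame
  have okT : BxA (tubes (F.m (2 * c - d)) (F.lst c d)) := by
    refine ⟨?_, ?_⟩
    · filter_upwards [hl] with i h1 ω hω
      refine ⟨h1 ω hω, ?_, le_rfl⟩
      show |(0:ℝ)| ≤ 4
      norm_num
    · obtain ⟨C, hC⟩ := bm
      refine ⟨C, ?_⟩
      filter_upwards [hC] with i h1 ω _
      exact h1
  have tX : Tame X := okT.tame.mono (Coa.fn_lab' _ _)
  have tN : Tame (F.N c') := K931.tame_N F hK hc'K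
  have tB : Tame (F.ball c) := K931.tame_ball F hK (by omega)
  -- entropies
  have w := H912.low_W hK hR hc'K
  have s1 := hc_le_add tN tB P
  have s2 : F.S.hc (F.ball c) P ≤ F.S.hc (F.ball c) (F.ball c') :=
    hc_mono_right tB (Eventually.of_forall fun _ _ _ _ _ e => congrArg Prod.snd e)
  have s3 := H912.low_ball (F := F) hK hcc hc'K
  have s4 := hc_le_add tN tX (Sys.pr (F.ball c) P)
  have s5 : F.S.hc (F.N c') (Sys.pr X (Sys.pr (F.ball c) P)) ≤ F.S.hc (F.N c') (Sys.pr X (F.ball c)) := by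
    refine hc_mono_right tN (Eventually.of_forall fun _ _ _ _ _ e => ?_)
    simp only [pr_apply, Prod.mk.injEq] at e ⊢
    exact ⟨e.1, e.2.1⟩
  have s6 := H912.low_N (F := F) hK hcc hcd hd hdK
  have s7 := hc_le_add tX tL (Sys.pr (F.ball c) P)
  have s8 := hc_cut hK hR hc hcc hcd hd hdK
  have s9 : F.S.hc X (Sys.pr L (Sys.pr (F.ball c) P)) ≤ F.S.hc X (Sys.pr L (F.ball c)) := by
    refine hc_mono_right tX (Eventually.of_forall fun _ _ _ _ _ e => ?_)
    simp only [pr_apply, Prod.mk.injEq] at e ⊢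
    exact ⟨e.1, e.2.1⟩
  have s10 : F.S.hc X (Sys.pr L (F.ball c)) ≤
      F.S.hc (tubes (F.m (2 * c - d)) (F.lst c d)).lab (Sys.pr L (F.ball c)) := by
    refine hc_mono_left okT.tame tX ?_
    filter_upwards [Coa.fn_lab' (F.m (2 * c - d)) (F.lst c d)] with i hi ω ω' hω hω' e
    exact hi ω ω' hω hω' (congrArg Prod.fst e)
  -- sizes
  have hkj := kj_le hR hc'K
  have bk : F.S.Bd (fun i => kk c' i + jj c' i) := by
    refine bd_kj (c := 2 * c') hK ?_
    filter_upwards [hkj] with i hi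
    have := hi.1.trans hi.2
    have e2 : 2 * c' * F.n i = c' * F.n i + c' * F.n i := by ring
    omega
  have n1 : F.S.nu (fun i => kk c' i + jj c' i) = F.S.nu (kk c') + F.S.nu (jj c') := by
    have b1 : F.S.Bd (kk c') := bd_kj hK (hkj.mono fun i h => h.1.trans h.2)
    have b2 : F.S.Bd (jj c') := bd_kj hK (hkj.mono fun i h => h.2)
    unfold Sys.nu
    rw [← ulim_add (Apx.UB.nu b1) (Apx.UB.nu b2)]
    refine ulim_congr (Eventually.of_forall fun i => ?_)
    push_cast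
    ring
  have a1 : F.S.av (fun i ω => (tubes (F.m (2 * c - d)) (F.lst c d)).sz i ω - BX.sz (F.cut W kk c c' d) i ω) ≤
      2 * (c':ℝ) / K - F.S.nu (kk c') - F.S.nu (jj c') := by
    have e1 := ulim_lin hK bk (fun i => 2 * (c':ℝ) * F.n i - ((kk c' i + jj c' i : ℕ) : ℝ)) (2 * c') (-1)
      (Eventually.of_forall fun i => by ring)
    rw [n1] at e1
    have e2 : 2 * (c':ℝ) / K - F.S.nu (kk c') - F.S.nu (jj c') =
        ulim (fun i => (2 * (c':ℝ) * F.n i - ((kk c' i + jj c' i : ℕ) : ℝ)) / F.S.L i) := by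
      rw [e1]
      ring
    rw [e2]
    have ol := (ol_sz okT).sub (ol_sz hA.ok)
    refine ulim_le (UB.av ol) ?_ ?_
    · have : UB fun i => 2 * ((F.m c' i : ℝ) / F.S.L i) - ((kk c' i + jj c' i : ℕ) : ℝ) / F.S.L i :=
        ((Apx.UB.nu (K931.bd_m F hK c')).const_mul 2).sub (Apx.UB.nu bk)
      obtain ⟨C, hC⟩ := this
      refine ⟨C, ?_⟩
      filter_upwards [hC] with i hi
      have e3 : (2 * (c':ℝ) * F.n i - ((kk c' i + jj c' i : ℕ) : ℝ)) / F.S.L i =
          2 * ((F.m c' i : ℝ) / F.S.L i) - ((kk c' i + jj c' i : ℕ) : ℝ) / F.S.L i := by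
        unfold Flg.m
        push_cast
        ring
      rw [e3]
      exact hi
    · filter_upwards [hkj] with i hi
      refine div_le_div_of_nonneg_right ?_ (Nat.cast_nonneg _)
      have e4 : ∀ ω : F.S.Ω i, (tubes (F.m (2 * c - d)) (F.lst c d)).sz i ω - BX.sz (F.cut W kk c c' d) i ω =
          (F.m (2 * c - d) i : ℝ) - ((min (kk c' i - 2 * (c' - c) * F.n i) (F.m (2 * c - d) i) : ℕ) : ℝ) := by
        intro ω
        show ((F.m (2 * c - d) i : ℝ) + (F.m (2 * c - d) i : ℝ)) -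
          (((min (kk c' i - 2 * (c' - c) * F.n i) (F.m (2 * c - d) i) : ℕ) : ℝ) + (F.m (2 * c - d) i : ℝ)) = _
        ring
      have e5 : (F.S.P i).ex (fun ω => (tubes (F.m (2 * c - d)) (F.lst c d)).sz i ω - BX.sz (F.cut W kk c c' d) i ω) =
          (F.m (2 * c - d) i : ℝ) - ((min (kk c' i - 2 * (c' - c) * F.n i) (F.m (2 * c - d) i) : ℕ) : ℝ) := by
        rw [funext e4, (F.S.P i).ex_const]
      rw [e5]
      have h6 : F.m (2 * c - d) i + (kk c' i + jj c' i) ≤
          2 * c' * F.n i + min (kk c' i - 2 * (c' - c) * F.n i) (F.m (2 * c - d) i) := by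
        have m1 : F.m (2 * c - d) i + 2 * (c' - c) * F.n i ≤ c' * F.n i := by
          show (2 * c - d) * F.n i + 2 * (c' - c) * F.n i ≤ _
          rw [← add_mul]
          exact Nat.mul_le_mul_right _ (by omega)
        have m2 : 2 * c' * F.n i = c' * F.n i + c' * F.n i := by ring
        rw [m2]
        generalize 2 * (c' - c) * F.n i = δ at *
        generalize F.m (2 * c - d) i = m at *
        omega
      have h7 : (F.m (2 * c - d) i : ℝ) + ((kk c' i + jj c' i : ℕ) : ℝ) ≤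
          2 * c' * F.n i + ((min (kk c' i - 2 * (c' - c) * F.n i) (F.m (2 * c - d) i) : ℕ) : ℝ) := by
        exact_mod_cast h6
      linarith
  unfold Sys.val
  have e7 : 6 * ((c':ℝ) - c) / K = 6 * (((c':ℝ) - c) / K) := by ring
  have e8 : 4 * ((d:ℝ) - c) / K = 4 * (((d:ℝ) - c) / K) := by ring
  have e9 : 2 * ((c':ℝ) - c) / K = 2 * (((c':ℝ) - c) / K) := by ring
  rw [e7] at s3
  rw [e8, e9] at s6
  linarith

/-- **StCut** -/
theorem stCut : H380.StCut 12 := by
  intro K F J θ H e W kk jj hK hR c c' d hc hcc hcd hd hdK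
  have hKp : (0:ℝ) < K := by exact_mod_cast hK
  have h1 := val_cut hK hR hc hcc hcd hd hdK
  have h2 := H380.nα_ge hK hR (c := c') (hcd.trans hdK)
  have h3 : ((c':ℝ) - c) / K ≤ ((d:ℝ) - c) / K := by
    refine div_le_div_of_nonneg_right ?_ hKp.le
    have : (c':ℝ) ≤ d := by exact_mod_cast hcd
    linarith
  have h4 : (1:ℝ) / K ≤ 12 / K := div_le_div_of_nonneg_right (by norm_num) hKp.le
  linarith

end Vale.Agent.P122.H823
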