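import Vale.Agent.P122.H823.Lst
import Vale.Agent.P122.H265.Sig
import Vale.Agent.P122.H655.E3
import Vale.Agent.P127.U.ExcB

/-!
# P122 / E8 : geometry of the cut boxes (helper823)

* `geo1`, `geo2` : the line `lst c d` is the image of the line `ln c'` under the affine map from the ball `c'` to
  the ball `c`, up to `2^(-m)`, `m = (2 c - d) n`.
* `lab_cut` : the label of the cut box is a function of the label of `W c'` and of the balls, up to `2^g` values.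
-/

set_option autoImplicit false

namespace Vale.Agent.P122.H823

open Filter Topology Finset Vale.Agent.P127 Vale.Agent.P127.Stk Vale.Agent.P127.U Vale.Agent.P127.U.Sys Vale.Agent.P122.C2
  Vale.Agent.P122.E Vale.Agent.P122.H474 Vale.Agent.P122.H265

variable {K : ℕ} (F : Flg K)

/-- constant of the errors -/
noncomputable def cst : ℝ := 1 + (F.C + 2) * K

theorem half_pow (m : ℕ) : (1 / 2 : ℝ) ^ m = 1 / 2 ^ m := by rw [div_pow, one_pow]

/-- the position of `lst` -/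
theorem lst_fst {c d : ℕ} (hcd : c ≤ d) (hd2 : d ≤ 2 * c) (i : ℕ) (ω : F.S.Ω i) (k : Fin 2) :
    (F.lst c d i ω).1 k + ((F.ball c i ω).2 k : ℝ) =
      (((F.N c i ω).o k / 2 ^ ((d - c) * F.n i) : ℤ) : ℝ) / 2 ^ ((2 * c - d) * F.n i) := by
  have h1 : (F.lst c d i ω).1 k = Int.fract ((((F.N c i ω).o k / 2 ^ ((d - c) * F.n i) : ℤ) : ℝ) /
      2 ^ ((2 * c - d) * F.n i)) := rfl
  have h2 : (F.ball c i ω).2 k = (F.N c i ω).o k / 2 ^ (c * F.n i) := rfl
  rw [h1, h2, Int.fract]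
  have h3 : ⌊(((F.N c i ω).o k / 2 ^ ((d - c) * F.n i) : ℤ) : ℝ) / 2 ^ ((2 * c - d) * F.n i)⌋ =
      (F.N c i ω).o k / 2 ^ (c * F.n i) := by
    have h : (2 : ℝ) ^ ((2 * c - d) * F.n i) = (((2 ^ ((2 * c - d) * F.n i) : ℕ) : ℤ) : ℝ) := by push_cast; rfl
    rw [h, Int.cast_natCast, Int.floor_div_natCast, Int.floor_intCast]
    push_cast
    rw [Int.ediv_ediv_of_nonneg (by positivity), ← pow_add, ← add_mul]
    congr 3
    omega
  rw [h3]
  ring

/-- the affine map from the ball `c'` to the ball `c` -/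
theorem geo1 {c c' d : ℕ} (hc : c ≤ c') (hd : c' ≤ d) (hd2 : d ≤ 2 * c) (hK : d ≤ K) {i : ℕ} {ω : F.S.Ω i}
    (hω : 0 < (F.S.P i).w ω) (k : Fin 2) :
    |(F.lst c d i ω).1 k + ((F.ball c i ω).2 k : ℝ) -
      (2 ^ (2 * (c' - c) * F.n i) * ((F.ln c' i ω).1 k + ((F.ball c' i ω).2 k : ℝ)) +
        (((F.N c i ω).T % 2 ^ (2 * (c' - c) * F.n i) : ℤ) : ℝ) * (F.ln c' i ω).2 k)| ≤
      cst F * (1 / 2) ^ ((2 * c - d) * F.n i) := by
  have hch := chn F i ω hω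
  have hs := F.slp i
  have hC := Chn.C_nonneg hs
  rw [lst_fst F (hc.trans hd) hd2]
  set n := F.n i with hn
  have h1 := hch.posn hs hc (hd.trans hK) k
  rw [hch.tm_sub hc (hd.trans hK)] at h1
  have h2 := abs_ediv_sub ((F.N c i ω).o k) ((d - c) * n)
  have e1 : (F.ln c' i ω).1 k + ((F.ball c' i ω).2 k : ℝ) = ((F.N c' i ω).o k : ℝ) / 2 ^ (c' * n) := by
    have := lst_fst F (le_refl c') (by omega : c' ≤ 2 * c') i ω k
    simp only [Nat.sub_self, zero_mul, pow_zero] at this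
    have e2 : 2 * c' - c' = c' := by omega
    rw [e2, Int.ediv_one] at this
    rw [← this]
    have e3 : (F.ln c' i ω).1 k = (F.lst c' c' i ω).1 k := by
      show Int.fract (((F.N c' i ω).o k : ℝ) / 2 ^ (c' * F.n i)) =
        Int.fract ((((F.N c' i ω).o k / 2 ^ ((c' - c') * F.n i) : ℤ) : ℝ) / 2 ^ ((2 * c' - c') * F.n i))
      rw [Nat.sub_self, zero_mul, pow_zero, Int.ediv_one, e2]
    rw [e3]
  have e2 : (F.ln c' i ω).2 k = F.s i c' (F.N c' i ω).τ k := rfl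
  rw [e1, e2]
  set oc : ℝ := ((F.N c i ω).o k : ℝ) with hoc
  set oc' : ℝ := ((F.N c' i ω).o k : ℝ) with hoc'
  set ρ : ℝ := (((F.N c i ω).T % 2 ^ (2 * (c' - c) * n) : ℤ) : ℝ) with hρ
  set sl : ℝ := F.s i c' (F.N c' i ω).τ k with hsl
  set q : ℝ := (((F.N c i ω).o k / 2 ^ ((d - c) * n) : ℤ) : ℝ) with hq
  set m := (2 * c - d) * n with hm
  have pm : (0:ℝ) < 2 ^ m := by positivity
  have h3 : |q / 2 ^ m - oc / 2 ^ (c * n)| ≤ (1 / 2) ^ m := by
    have e3 : (2:ℝ) ^ (c * n) = 2 ^ ((d - c) * n) * 2 ^ m := by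
      rw [← pow_add, ← add_mul]
      congr 2
      omega
    rw [e3, ← div_div, ← sub_div, abs_div, abs_of_pos pm, half_pow]
    gcongr
  have h4 : |oc / 2 ^ (c * n) - (2 ^ (2 * (c' - c) * n) * (oc' / 2 ^ (c' * n)) + ρ * sl)| ≤
      (F.C + 2) * K * (1 / 2) ^ m := by
    have e4 : oc / 2 ^ (c * n) - (2 ^ (2 * (c' - c) * n) * (oc' / 2 ^ (c' * n)) + ρ * sl) =
        (ps n c (F.N c i ω) k - (ps n c' (F.N c' i ω) k + 2 ^ (2 * c * n) * ρ * sl)) / 2 ^ (2 * c * n) := by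
      unfold ps
      have a1 : (2:ℝ) ^ (2 * c * n) = 2 ^ (c * n) * 2 ^ (c * n) := by
        rw [← pow_add]; congr 1; ring
      have a2 : (2:ℝ) ^ (2 * (c' - c) * n) * 2 ^ (c * n) * 2 ^ (c * n) = 2 ^ (c' * n) * 2 ^ (c' * n) := by
        rw [← pow_add, ← pow_add, ← pow_add, ← add_mul, ← add_mul, ← add_mul]
        congr 2
        omega
      rw [a1]
      have p1 : (0:ℝ) < 2 ^ (c * n) := by positivity
      have p2 : (0:ℝ) < 2 ^ (c' * n) := by positivity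
      rw [← hoc, ← hoc', eq_div_iff (by positivity)]
      have a3 : (2:ℝ) ^ (2 * (c' - c) * n) * (oc' / 2 ^ (c' * n)) * (2 ^ (c * n) * 2 ^ (c * n)) =
          2 ^ (c' * n) * oc' := by
        have a4 : (2:ℝ) ^ (2 * (c' - c) * n) * (oc' / 2 ^ (c' * n)) * (2 ^ (c * n) * 2 ^ (c * n)) =
            (2 ^ (2 * (c' - c) * n) * 2 ^ (c * n) * 2 ^ (c * n)) * (oc' / 2 ^ (c' * n)) := by ring
        rw [a4, a2]
        field_simp
      have a5 : oc / 2 ^ (c * n) * (2 ^ (c * n) * 2 ^ (c * n)) = 2 ^ (c * n) * oc := by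
        field_simp
      linear_combination a5 - a3
    rw [e4, abs_div, abs_of_pos (by positivity : (0:ℝ) < 2 ^ (2 * c * n)), div_le_iff₀ (by positivity)]
    refine h1.trans ?_
    have p3 : (2:ℝ) ^ (c' * n) ≤ (1 / 2) ^ m * 2 ^ (2 * c * n) := by
      rw [half_pow, one_div, inv_mul_eq_div, le_div_iff₀ pm, ← pow_add]
      refine pow_le_pow_right₀ (by norm_num) ?_
      rw [hm, ← add_mul]
      exact Nat.mul_le_mul_right n (by omega)
    have p4 : (F.C + 2) * ((c':ℝ) - c) ≤ (F.C + 2) * K := by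
      have : (c':ℝ) ≤ K := by exact_mod_cast hd.trans hK
      have h0 : (0:ℝ) ≤ c := Nat.cast_nonneg _
      exact mul_le_mul_of_nonneg_left (by linarith) (by linarith)
    calc (F.C + 2) * ((c':ℝ) - c) * 2 ^ (c' * n) ≤ (F.C + 2) * K * 2 ^ (c' * n) :=
          mul_le_mul_of_nonneg_right p4 (by positivity)
      _ ≤ (F.C + 2) * K * ((1 / 2) ^ m * 2 ^ (2 * c * n)) :=
          mul_le_mul_of_nonneg_left p3 (by positivity)
      _ = _ := by ring
  have h5 := abs_sub_le (q / 2 ^ m) (oc / 2 ^ (c * n)) (2 ^ (2 * (c' - c) * n) * (oc' / 2 ^ (c' * n)) + ρ * sl)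
  unfold cst
  rw [add_mul, one_mul]
  linarith

/-- the slopes -/
theorem geo2 {c c' d : ℕ} (hc : c ≤ c') (hd : c' ≤ d) (hd2 : d ≤ 2 * c) (hK : d ≤ K) {i : ℕ} {ω : F.S.Ω i}
    (hω : 0 < (F.S.P i).w ω) (k : Fin 2) :
    |(F.lst c d i ω).2 k - (F.ln c' i ω).2 k| ≤ cst F * (1 / 2) ^ ((2 * c - d) * F.n i) := by
  have hch := chn F i ω hω
  have hs := F.slp i
  have hC := Chn.C_nonneg hs
  have h1 := hch.slope hs (c := 2 * c - d) (d := c') (by omega) (hd.trans hK) k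
  have e1 : (F.lst c d i ω).2 k = F.s i (2 * c - d) (F.N (2 * c - d) i ω).τ k := by
    show F.s i (2 * c - d) (fun k => (F.N c i ω).τ k / 2 ^ ((d - c) * F.n i)) k = _
    congr 1
    funext k
    have h2 := hch.tau_eq (c := 2 * c - d) (d := c) (by omega) ((hc.trans hd).trans hK) k
    have h3 : c - (2 * c - d) = d - c := by omega
    rw [h3] at h2
    exact h2.symm
  have e2 : (F.ln c' i ω).2 k = F.s i c' (F.N c' i ω).τ k := rfl
  rw [e1, e2]
  refine h1.trans ?_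
  rw [half_pow, mul_one_div]
  have h3 : (c':ℝ) ≤ K := by exact_mod_cast hd.trans hK
  have h0 : (0:ℝ) ≤ ((2 * c - d : ℕ) : ℝ) := Nat.cast_nonneg _
  gcongr
  unfold cst
  nlinarith

/-! ### change of frame -/

theorem rot_le {φ ψ A : ℝ} {k m b g : ℕ} {v : Fin 2 → ℝ} (hk : k ≤ m) (hb : m ≤ b + k + g)
    (h0 : |co φ v 0| ≤ A * (1 / 2) ^ k) (h1 : |co φ v 1| ≤ A * (2 ^ g * (1 / 2) ^ m))
    (hφ : |ψ - φ| ≤ (1 / 2) ^ (m - k) + (1 / 2) ^ b) :
    |co ψ v 0| ≤ 2 * A * 2 ^ g * (1 / 2) ^ k ∧ |co ψ v 1| ≤ 3 * A * 2 ^ g * (1 / 2) ^ m := by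
  have hs : |Real.sin (ψ - φ)| ≤ |ψ - φ| := Real.abs_sin_le_abs
  have hs1 := Real.abs_sin_le_one (ψ - φ)
  have hc1 := Real.abs_cos_le_one (ψ - φ)
  have pk : (0:ℝ) < (1 / 2) ^ k := by positivity
  have pm : (0:ℝ) < (1 / 2) ^ m := by positivity
  have g1 : (1:ℝ) ≤ 2 ^ g := one_le_pow₀ (by norm_num)
  have hA : 0 ≤ A := by
    by_contra hA
    push Not at hA
    have := (abs_nonneg _).trans h0
    nlinarith
  have km : (1 / 2 : ℝ) ^ m ≤ (1 / 2) ^ k := pow_le_pow_of_le_one (by norm_num) (by norm_num) hk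
  rw [co_rot0 φ ψ v, co_rot1 φ ψ v]
  constructor
  · have a1 : |Real.cos (ψ - φ) * co φ v 0| ≤ 1 * (A * (1 / 2) ^ k) := by
      rw [abs_mul]
      exact mul_le_mul hc1 h0 (abs_nonneg _) (by norm_num)
    have a2 : |Real.sin (ψ - φ) * co φ v 1| ≤ 1 * (A * (2 ^ g * (1 / 2) ^ m)) := by
      rw [abs_mul]
      exact mul_le_mul hs1 h1 (abs_nonneg _) (by norm_num)
    have a3 := abs_add_le (Real.cos (ψ - φ) * co φ v 0) (Real.sin (ψ - φ) * co φ v 1)
    have a4 : A * (1 / 2) ^ k ≤ A * 2 ^ g * (1 / 2) ^ k := by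
      have : A * (1 / 2) ^ k * 1 ≤ A * (1 / 2) ^ k * 2 ^ g := mul_le_mul_of_nonneg_left g1 (by positivity)
      linarith
    have a5 : A * (2 ^ g * (1 / 2) ^ m) ≤ A * 2 ^ g * (1 / 2) ^ k := by
      have : A * 2 ^ g * (1 / 2) ^ m ≤ A * 2 ^ g * (1 / 2) ^ k := mul_le_mul_of_nonneg_left km (by positivity)
      linarith
    linarith
  · have a1 : |Real.cos (ψ - φ) * co φ v 1| ≤ 1 * (A * (2 ^ g * (1 / 2) ^ m)) := by
      rw [abs_mul]
      exact mul_le_mul hc1 h1 (abs_nonneg _) (by norm_num)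
    have a2 : |-Real.sin (ψ - φ) * co φ v 0| ≤ ((1 / 2) ^ (m - k) + (1 / 2) ^ b) * (A * (1 / 2) ^ k) := by
      rw [abs_mul, abs_neg]
      exact mul_le_mul (hs.trans hφ) h0 (abs_nonneg _) (by positivity)
    have a3 := abs_add_le (-Real.sin (ψ - φ) * co φ v 0) (Real.cos (ψ - φ) * co φ v 1)
    have a4 : (1 / 2 : ℝ) ^ (m - k) * (1 / 2) ^ k = (1 / 2) ^ m := by
      rw [← pow_add]
      congr 1
      omega
    have a5 : (1 / 2 : ℝ) ^ b * (1 / 2) ^ k ≤ 2 ^ g * (1 / 2) ^ m := by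
      rw [← pow_add]
      have e : (1 / 2 : ℝ) ^ (b + k) = 2 ^ g * (1 / 2) ^ (b + k + g) := by
        rw [pow_add _ (b + k) g, half_pow g]
        have : (2:ℝ) ^ g ≠ 0 := by positivity
        field_simp
      rw [e]
      exact mul_le_mul_of_nonneg_left (pow_le_pow_of_le_one (by norm_num) (by norm_num) hb) (by positivity)
    have a6 : ((1 / 2 : ℝ) ^ (m - k) + (1 / 2) ^ b) * (A * (1 / 2) ^ k) ≤ 2 * (A * (2 ^ g * (1 / 2) ^ m)) := by
      have e : ((1 / 2 : ℝ) ^ (m - k) + (1 / 2) ^ b) * (A * (1 / 2) ^ k) =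
          A * ((1 / 2 : ℝ) ^ (m - k) * (1 / 2) ^ k + (1 / 2 : ℝ) ^ b * (1 / 2) ^ k) := by ring
      rw [e, a4]
      have : (1 / 2 : ℝ) ^ m ≤ 2 ^ g * (1 / 2) ^ m := by
        have := mul_le_mul_of_nonneg_right g1 pm.le
        linarith
      have := mul_le_mul_of_nonneg_left (add_le_add this a5) hA
      linarith
    linarith

/-- digits of close vectors -/
theorem dig_le {A : ℝ} {m g N : ℕ} {x y : ℝ} (hN : A ≤ N) (h : |x - y| ≤ A * 2 ^ g * (1 / 2) ^ m) :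
    |fl1 m x - fl1 m y| ≤ ((N * 2 ^ g + 1 : ℕ) : ℤ) := by
  have h1 : |x - y| ≤ ((N * 2 ^ g : ℕ) : ℝ) * (1 / 2) ^ m := by
    refine h.trans ?_
    push_cast
    gcongr
  have := fl1_sub_le h1
  push_cast at this ⊢
  exact this

/-- the label of the cut box -/
theorem lab_cut {B ρ θ θ' : ℝ} {kk jj δ m g N : ℕ} {l l' L L' : Ln} (hB : 0 ≤ B) (hN : 3 * (4 + 4 * B) ≤ N)
    (hkj : kk ≤ jj) (hg : m + δ ≤ jj + g) (hρ : 0 ≤ ρ) (hρ1 : ρ ≤ 2 ^ δ) (hL : LnOk L) (hL' : LnOk L')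
    (h1 : ∀ k, |(L.1 k - L'.1 k) - (2 ^ δ * (l.1 k - l'.1 k) + ρ * (l.2 k - l'.2 k))| ≤ 2 * B * (1 / 2) ^ m)
    (h2 : ∀ k, |(L.2 k - L'.2 k) - (l.2 k - l'.2 k)| ≤ 2 * B * (1 / 2) ^ m)
    (e1 : lab θ kk jj l = lab θ' kk jj l')
    (e2 : fl1 (m - min (kk - δ) m) θ = fl1 (m - min (kk - δ) m) θ') :
    LabCl (N * 2 ^ g + 1) (lab θ (min (kk - δ) m) m L) (lab θ' (min (kk - δ) m) m L') := by
  set k' := min (kk - δ) m with hk'
  simp only [lab, Prod.mk.injEq] at e1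
  obtain ⟨-, -, a1, a2, a3⟩ := e1
  have q1 : qa (jj - kk) θ' = qa (jj - kk) θ := by unfold qa; rw [a1]
  have q2 : qa (m - k') θ' = qa (m - k') θ := by unfold qa; rw [e2]
  rw [q1] at a2 a3
  simp only [fkj, Prod.mk.injEq] at a2 a3
  set φ := qa (jj - kk) θ with hφ
  set ψ := qa (m - k') θ with hψ
  have b0 := fl1_close a2.1
  have b1 := fl1_close a2.2
  have c0 := fl1_close a3.1
  have c1 := fl1_close a3.2
  rw [← co_sub] at b0 b1 c0 c1
  set u : Fin 2 → ℝ := fun j => l.1 j - l'.1 j with hu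
  set w : Fin 2 → ℝ := fun j => l.2 j - l'.2 j with hw
  set v : Fin 2 → ℝ := fun j => L.1 j - L'.1 j with hv
  set z : Fin 2 → ℝ := fun j => L.2 j - L'.2 j with hz
  have pm : (0:ℝ) < (1 / 2) ^ m := by positivity
  have pd : (0:ℝ) < 2 ^ δ := by positivity
  have g1 : (1:ℝ) ≤ 2 ^ g := one_le_pow₀ (by norm_num)
  have hkm : k' ≤ m := min_le_right _ _
  have km : (1 / 2 : ℝ) ^ m ≤ (1 / 2) ^ k' := pow_le_pow_of_le_one (by norm_num) (by norm_num) hkm
  -- errors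
  have f1 : ∀ i, |co φ v i - (2 ^ δ * co φ u i + ρ * co φ w i)| ≤ 4 * B * (1 / 2) ^ m := by
    intro i
    have := abs_co_le (θ := φ) (v := fun k => v k - (2 ^ δ * u k + ρ * w k)) h1 i
    have e : co φ (fun k => v k - (2 ^ δ * u k + ρ * w k)) i = co φ v i - (2 ^ δ * co φ u i + ρ * co φ w i) := by
      fin_cases i <;> simp [co] <;> ring
    rw [e] at this
    linarith
  have f2 : ∀ i, |co φ z i - co φ w i| ≤ 4 * B * (1 / 2) ^ m := by
    intro i
    have := abs_co_le (θ := φ) (v := fun k => z k - w k) h2 i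
    rw [co_sub] at this
    linarith
  have f3 : ∀ i, |co φ v i| ≤ 4 := by
    intro i
    have h3 : ∀ k, |v k| ≤ 2 := fun k => by
      refine (abs_sub _ _).trans ?_
      have := hL.1 k
      have := hL'.1 k
      linarith
    have := abs_co_le (θ := φ) h3 i
    linarith
  have f4 : ∀ i (r : ℝ), 0 ≤ r → |co φ u i| ≤ r → |co φ w i| ≤ r →
      |2 ^ δ * co φ u i + ρ * co φ w i| ≤ 2 * (2 ^ δ * r) := by
    intro i r hr x1 x2
    refine (abs_add_le _ _).trans ?_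
    rw [abs_mul, abs_mul, abs_of_pos pd, abs_of_nonneg hρ]
    have y1 : 2 ^ δ * |co φ u i| ≤ 2 ^ δ * r := mul_le_mul_of_nonneg_left x1 pd.le
    have y2 : ρ * |co φ w i| ≤ 2 ^ δ * r := mul_le_mul hρ1 x2 (abs_nonneg _) pd.le
    linarith
  have f5 : (2:ℝ) ^ δ * (1 / 2) ^ jj ≤ 2 ^ g * (1 / 2) ^ m := by
    rw [half_pow, half_pow, mul_one_div, mul_one_div, div_le_div_iff₀ (by positivity) (by positivity), ← pow_add,
      ← pow_add]
    exact pow_le_pow_right₀ (by norm_num) (by omega)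
  have f6 : (1 / 2 : ℝ) ^ jj ≤ 2 ^ g * (1 / 2) ^ m := by
    refine le_trans ?_ f5
    have : (1:ℝ) ≤ 2 ^ δ := one_le_pow₀ (by norm_num)
    have := mul_le_mul_of_nonneg_right this (by positivity : (0:ℝ) ≤ (1 / 2) ^ jj)
    linarith
  -- the position
  have v1 : |co φ v 1| ≤ (4 + 4 * B) * (2 ^ g * (1 / 2) ^ m) := by
    have x1 := f4 1 _ (by positivity) b1 c1
    have x2 := f1 1
    have x3 := abs_sub_abs_le_abs_sub (co φ v 1) (2 ^ δ * co φ u 1 + ρ * co φ w 1)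
    have x4 : 4 * B * (1 / 2) ^ m ≤ 4 * B * (2 ^ g * (1 / 2) ^ m) := by
      refine mul_le_mul_of_nonneg_left ?_ (by positivity)
      have := mul_le_mul_of_nonneg_right g1 pm.le
      linarith
    nlinarith
  have v0 : |co φ v 0| ≤ (4 + 4 * B) * (1 / 2) ^ k' := by
    rcases Nat.lt_or_ge kk δ with hlt | hge
    · have hk0 : k' = 0 := by omega
      rw [hk0, pow_zero]
      have := f3 0
      linarith
    · have x1 := f4 0 _ (by positivity) b0 c0
      have x2 := f1 0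
      have x3 := abs_sub_abs_le_abs_sub (co φ v 0) (2 ^ δ * co φ u 0 + ρ * co φ w 0)
      have x5 : (2:ℝ) ^ δ * (1 / 2) ^ kk ≤ (1 / 2) ^ k' := by
        rw [half_pow, half_pow, mul_one_div, div_le_div_iff₀ (by positivity) (by positivity), one_mul, ← pow_add]
        exact pow_le_pow_right₀ (by norm_num) (by omega)
      have x4 : 4 * B * (1 / 2) ^ m ≤ 4 * B * (1 / 2) ^ k' := mul_le_mul_of_nonneg_left km (by positivity)
      nlinarith [(by positivity : (0:ℝ) < (1 / 2) ^ k')]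
  have z1 : |co φ z 1| ≤ (4 + 4 * B) * (2 ^ g * (1 / 2) ^ m) := by
    have x2 := f2 1
    have x3 := abs_sub_abs_le_abs_sub (co φ z 1) (co φ w 1)
    have x4 : 4 * B * (1 / 2) ^ m ≤ 4 * B * (2 ^ g * (1 / 2) ^ m) := by
      refine mul_le_mul_of_nonneg_left ?_ (by positivity)
      have := mul_le_mul_of_nonneg_right g1 pm.le
      linarith
    have x5 : (0:ℝ) ≤ 2 ^ g * (1 / 2) ^ m := by positivity
    linarith
  have z0 : |co φ z 0| ≤ (4 + 4 * B) * (1 / 2) ^ k' := by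
    have x2 := f2 0
    have x3 := abs_sub_abs_le_abs_sub (co φ z 0) (co φ w 0)
    have x4 : 4 * B * (1 / 2) ^ m ≤ 4 * B * (1 / 2) ^ k' := mul_le_mul_of_nonneg_left km (by positivity)
    have x5 : (1 / 2 : ℝ) ^ kk ≤ (1 / 2) ^ k' := pow_le_pow_of_le_one (by norm_num) (by norm_num) (by omega)
    have x6 : (0:ℝ) < (1 / 2) ^ k' := by positivity
    linarith
  -- the angle
  have hφψ : |ψ - φ| ≤ (1 / 2) ^ (m - k') + (1 / 2) ^ (jj - kk) := by
    have y1 := qa_close (jj - kk) θ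
    have y2 := qa_close (m - k') θ
    have e : ψ - φ = (θ - φ) - (θ - ψ) := by ring
    rw [e]
    refine (abs_sub _ _).trans ?_
    linarith
  have hb : m ≤ (jj - kk) + k' + g := by omega
  obtain ⟨r1, r2⟩ := rot_le hkm hb v0 v1 hφψ
  obtain ⟨r3, r4⟩ := rot_le hkm hb z0 z1 hφψ
  have hN1 : 2 * (4 + 4 * B) ≤ N := by linarith
  refine ⟨rfl, rfl, e2, ?_, ?_, ?_, ?_⟩
  · show |fl1 k' (co (qa (m - k') θ) L.1 0) - fl1 k' (co (qa (m - k') θ') L'.1 0)| ≤ _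
    rw [q2]
    rw [hv, co_sub] at r1
    exact dig_le hN1 r1
  · show |fl1 m (co (qa (m - k') θ) L.1 1) - fl1 m (co (qa (m - k') θ') L'.1 1)| ≤ _
    rw [q2]
    rw [hv, co_sub] at r2
    exact dig_le hN r2
  · show |fl1 k' (co (qa (m - k') θ) L.2 0) - fl1 k' (co (qa (m - k') θ') L'.2 0)| ≤ _
    rw [q2]
    rw [hz, co_sub] at r3
    exact dig_le hN1 r3
  · show |fl1 m (co (qa (m - k') θ) L.2 1) - fl1 m (co (qa (m - k') θ') L'.2 1)| ≤ _
    rw [q2]
    rw [hz, co_sub] at r4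
    exact dig_le hN r4

/-- the digits of the angle -/
theorem ang_cut {θ θ' : ℝ} {a b g : ℕ} (h : b ≤ a + g) (e : fl1 a θ = fl1 a θ') :
    |fl1 b θ' - fl1 b θ| ≤ ((2 ^ g + 1 : ℕ) : ℤ) := by
  have h1 := fl1_close e
  have h2 : |θ' - θ| ≤ ((2 ^ g : ℕ) : ℝ) * (1 / 2) ^ b := by
    rw [abs_sub_comm]
    refine h1.trans ?_
    push_cast
    rw [half_pow, half_pow, mul_one_div, div_le_div_iff₀ (by positivity) (by positivity), one_mul, ← pow_add]
    exact pow_le_pow_right₀ (by norm_num) (by omega)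
  have := fl1_sub_le h2
  push_cast at this ⊢
  exact this

end Vale.Agent.P122.H823
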